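import Vale.Agent.P250.Stmt

/-!
Definitions used in the statement of the stronger form: points at which all bounded holomorphic
functions (or maps into normed spaces) of a domain are stationary in a given direction.
-/

namespace Vale.Agent.P250.H154

open Set

variable {E : Type*} [NormedAddCommGroup E] [NormedSpace ℂ E]

/-- Every bounded holomorphic function `F` on `M` satisfies `∂_v^j F (p) = 0` for `1 ≤ j ≤ K`,
the derivatives of the one-variable function `t ↦ F (p + t v)` at `t = 0`. -/
def FlatAt (M : Set E) (K : ℕ) (p v : E) : Prop :=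
  ∀ F : E → ℂ, DifferentiableOn ℂ F M → (∃ C : ℝ, ∀ q ∈ M, ‖F q‖ ≤ C) →
    ∀ j : ℕ, 1 ≤ j → j ≤ K → iteratedDeriv j (fun t : ℂ => F (p + t • v)) 0 = 0

/-- Every bounded holomorphic map `F` from `M` into an arbitrary complex normed space satisfies
`dF_p (v) = 0`. -/
def StationaryAt (M : Set E) (p v : E) : Prop :=
  ∀ (Y : Type) [NormedAddCommGroup Y] [NormedSpace ℂ Y] (F : E → Y),
    DifferentiableOn ℂ F M → (∃ C : ℝ, ∀ q ∈ M, ‖F q‖ ≤ C) → fderiv ℂ F p v = 0

end Vale.Agent.P250.H154
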