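import Vale.Agent.P250.Bdl.B3
import Vale.Agent.P250.H154.Defs

/-!
P250 (helper154): the stronger form.  On the disc bundle with weight `χ = s φ` all bounded
holomorphic functions are stationary to order `K` in the direction of the fibre along the zero
section over `DD`, as soon as `NoFunction (j χ)` for `1 ≤ j ≤ K`, i.e. for small `s`.
-/

set_option maxSynthPendingDepth 3

namespace Vale.Agent.P250.H154

open Set Filter Topology Vale.Agent.P250 Vale.Agent.P250.G

section Flat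

variable {E : Type*} [NormedAddCommGroup E] [NormedSpace ℂ E] [FiniteDimensional ℂ E]

/-- iterated directional derivative -/
noncomputable def HH (F : E → ℂ) (v : E) : ℕ → E → ℂ
  | 0 => F
  | j + 1 => fun p => fderiv ℂ (HH F v j) p v

lemma HH_diff {M : Set E} (hM : IsOpen M) {F : E → ℂ} (hF : DifferentiableOn ℂ F M) (v : E)
    (j : ℕ) : DifferentiableOn ℂ (HH F v j) M := by
  induction j with
  | zero => exact hF
  | succ j ih => exact differentiableOn_fderiv_apply hM ih v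

lemma HH_iteratedDeriv {M : Set E} (hM : IsOpen M) {F : E → ℂ} (hF : DifferentiableOn ℂ F M)
    (p v : E) (j : ℕ) : ∀ t : ℂ, p + t • v ∈ M →
      iteratedDeriv j (fun t : ℂ => F (p + t • v)) t = HH F v j (p + t • v) := by
  induction j with
  | zero =>
    intro t ht
    simp only [iteratedDeriv_zero, HH]
  | succ j ih =>
    intro t ht
    rw [iteratedDeriv_succ]
    have hcont : Continuous (fun t : ℂ => p + t • v) := by fun_prop
    have hev : iteratedDeriv j (fun t : ℂ => F (p + t • v)) =ᶠ[𝓝 t]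
        fun t => HH F v j (p + t • v) := by
      filter_upwards [hcont.continuousAt.preimage_mem_nhds (hM.mem_nhds ht)] with u hu
      exact ih u hu
    rw [hev.deriv_eq]
    have h1 : HasDerivAt (fun t : ℂ => p + t • v) v t := by
      simpa using ((hasDerivAt_id t).smul_const v).const_add p
    have h2 : DifferentiableAt ℂ (HH F v j) (p + t • v) :=
      (HH_diff hM hF v j).differentiableAt (hM.mem_nhds ht)
    exact (h2.hasFDerivAt.comp_hasDerivAt t h1).deriv

end Flat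

section B

variable {W : Type*} [NormedAddCommGroup W] [InnerProductSpace ℂ W] [FiniteDimensional ℂ W]

theorem flat_G (K : ℕ) (χ : (ℂ × ℂ) × W → ℝ) (hχ : ContinuousOn χ (DDG W))
    (hN : ∀ j : ℕ, 1 ≤ j → j ≤ K → NoFunction (fun q => (j : ℝ) * χ (q, 0)))
    (q : ℂ × ℂ) (hq : q ∈ DD) :
    FlatAt (MMg (DDG W) χ) K ((q, 0), 0) ((0, 1) : ((ℂ × ℂ) × W) × ℂ) := by
  intro F hF ⟨C, hC⟩ j hj hjK
  have hM : IsOpen (MMg (DDG W) χ) := GNot.isOpen_MMg _ GNot.isOpen_DDG χ hχ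
  set v : ((ℂ × ℂ) × W) × ℂ := (0, 1) with hv
  let inj : ℂ × ℂ → ((ℂ × ℂ) × W) × ℂ := fun q => ((q, 0), 0)
  have hzero : ∀ q ∈ DD, inj q ∈ MMg (DDG W) χ := fun q hq => GNot.mem_MMg_zero hq
  have key : ∀ q ∈ DD, iteratedDeriv j (fun t : ℂ => F (inj q + t • v)) 0 = HH F v j (inj q) := by
    intro q hq
    have := HH_iteratedDeriv hM hF (inj q) v j 0 (by simpa using hzero q hq)
    simpa using this
  have hdiff : DifferentiableOn ℂ (fun q : ℂ × ℂ => HH F v j (inj q)) DD := by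
    refine (HH_diff hM hF v j).comp ?_ (fun q hq => hzero q hq)
    fun_prop
  have hbound : ∀ q ∈ DD, ‖HH F v j (inj q)‖ ≤
      ((j.factorial : ℝ) * C * 2 ^ j) * Real.exp ((j : ℝ) * χ (q, 0)) := by
    intro q hq
    have hmem : ∀ t : ℂ, ‖t‖ < Real.exp (-χ (q, 0)) → inj q + t • v ∈ MMg (DDG W) χ := by
      intro t ht
      have e1 : (inj q + t • v).2 = t := by simp [inj, hv]
      have e2 : (inj q + t • v).1 = (q, 0) := by simp [inj, hv]
      refine ⟨?_, ?_⟩
      · rw [e2]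
        exact GNot.mem_DDG hq
      · rw [e1, e2]
        have h1 : ‖t‖ ^ 2 < Real.exp (-χ (q, 0)) ^ 2 := by
          apply pow_lt_pow_left₀ ht (norm_nonneg _)
          norm_num
        calc ‖t‖ ^ 2 * Real.exp (2 * χ (q, 0))
            < Real.exp (-χ (q, 0)) ^ 2 * Real.exp (2 * χ (q, 0)) :=
              mul_lt_mul_of_pos_right h1 (Real.exp_pos _)
          _ = 1 := by
              rw [← Real.exp_nat_mul, ← Real.exp_add]
              have : ((2 : ℕ) : ℝ) * -χ (q, 0) + 2 * χ (q, 0) = 0 := by push_cast; ring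
              rw [this, Real.exp_zero]
    have hr : 0 < Real.exp (-χ (q, 0)) / 2 := by positivity
    have hlt : Real.exp (-χ (q, 0)) / 2 < Real.exp (-χ (q, 0)) := by
      have := Real.exp_pos (-χ (q, 0))
      linarith only [hr]
    rw [← key q hq]
    have h3 : ‖iteratedDeriv j (fun t : ℂ => F (inj q + t • v)) 0‖ ≤
        j.factorial * C / (Real.exp (-χ (q, 0)) / 2) ^ j := by
      apply Complex.norm_iteratedDeriv_le_of_forall_mem_sphere_norm_le j hr
      · have hd : DifferentiableOn ℂ (fun t : ℂ => F (inj q + t • v))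
            (Metric.ball 0 (Real.exp (-χ (q, 0)))) := by
          refine hF.comp (by fun_prop) fun t ht => hmem t ?_
          rwa [mem_ball_zero_iff] at ht
        exact (hd.mono (Metric.closedBall_subset_ball hlt)).diffContOnCl_ball (le_refl _)
      · intro t ht
        rw [mem_sphere_zero_iff_norm] at ht
        exact hC _ (hmem t (by rw [ht]; exact hlt))
    refine h3.trans (le_of_eq ?_)
    have e3 : Real.exp ((j : ℝ) * χ (q, 0)) * Real.exp (-χ (q, 0)) ^ j = 1 := by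
      rw [← Real.exp_nat_mul, ← Real.exp_add]
      have : (j : ℝ) * χ (q, 0) + (j : ℝ) * -χ (q, 0) = 0 := by ring
      rw [this, Real.exp_zero]
    have hpos : (0 : ℝ) < Real.exp (-χ (q, 0)) ^ j := by positivity
    rw [div_pow, div_div_eq_mul_div, div_eq_iff hpos.ne']
    calc (j.factorial : ℝ) * C * 2 ^ j
        = (j.factorial : ℝ) * C * 2 ^ j *
          (Real.exp ((j : ℝ) * χ (q, 0)) * Real.exp (-χ (q, 0)) ^ j) := by rw [e3, mul_one]
      _ = _ := by ring
  have := hN j hj hjK (fun q => HH F v j (inj q)) hdiff ⟨_, hbound⟩ q hq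
  rw [← key q hq] at this
  exact this


variable (W) in
/-- the weight: all multiples `j χ`, `1 ≤ j ≤ K`, dominate only the zero function -/
theorem exists_chiG' (K : ℕ) : ∃ χ : (ℂ × ℂ) × W → ℝ, ContDiffOn ℝ (⊤ : ℕ∞) χ (DDG W) ∧
    (∀ j : ℕ, 1 ≤ j → j ≤ K → NoFunction (fun q => (j : ℝ) * χ (q, 0))) ∧
    ∃ ε0 C0 C3 C4 : ℝ, 0 < ε0 ∧ 0 < C0 ∧ 0 < C3 ∧ 0 < C4 ∧
      UniformJetsG (WithLp 2 (EuclideanSpace ℂ (Fin 2) × W)) (DDG W) PhiG ε0 C0 C3 C4 χ := by
  obtain ⟨CΨ, hC, hΨ⟩ := exists_Psi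
  obtain ⟨Ψ, hΨ⟩ := hΨ (1000 * ((CΨ + 2) + (CΨ + 2) + 1) + 2)
  obtain ⟨lam, hlam, hlam'⟩ := star_phi CΨ _ hC Ψ hΨ
  obtain ⟨ε, hε, hε'⟩ := hlam' lam le_rfl
  have hS := hε' ε hε le_rfl
  have hsm := phi_contDiffOn CΨ _ Ψ hΨ lam ε hlam
  have hsmG := phiG_contDiffOn (W := W) CΨ _ Ψ hΨ lam ε hlam
  obtain ⟨s0, hs0, hs⟩ := noFunction_of_star (phi Ψ lam ε) 4 (CΨ + 2) (CΨ + 2) _ hsm.continuousOn
    (by norm_num) (by linarith) (by linarith) (by linarith) hS
  have hK : (0 : ℝ) < (K : ℝ) + 1 := by positivity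
  have hs1 : 0 < s0 / ((K : ℝ) + 1) := div_pos hs0 hK
  refine ⟨fun q => s0 / ((K : ℝ) + 1) * phiG Ψ lam ε q, contDiffOn_const.mul hsmG, ?_, ?_⟩
  · intro j hj hjK
    simp only [phiG_zero]
    have h1 : (0 : ℝ) < j := by exact_mod_cast hj
    have h2 : (j : ℝ) ≤ K := by exact_mod_cast hjK
    have h3 : (j : ℝ) * (s0 / ((K : ℝ) + 1)) < s0 := by
      rw [mul_div_assoc', div_lt_iff₀ hK]
      nlinarith
    have h4 := hs ((j : ℝ) * (s0 / ((K : ℝ) + 1))) (mul_pos h1 hs1) h3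
    have h5 : (fun q => (j : ℝ) * (s0 / ((K : ℝ) + 1) * phi Ψ lam ε q)) =
        fun q => (j : ℝ) * (s0 / ((K : ℝ) + 1)) * phi Ψ lam ε q := by
      funext q
      ring
    rw [h5]
    exact h4
  · exact phiG_uniformJets CΨ _ Ψ hΨ lam ε hlam hε (s0 / ((K : ℝ) + 1)) hs1

variable (W) in
theorem main_W' (K : ℕ) : ∃ (χ : (ℂ × ℂ) × W → ℝ)
    (g : ((ℂ × ℂ) × W) × ℂ → ((ℂ × ℂ) × W) × ℂ → ((ℂ × ℂ) × W) × ℂ → ℝ)
    (Γ : ((ℂ × ℂ) × W) × ℂ → ((ℂ × ℂ) × W) × ℂ → ((ℂ × ℂ) × W) × ℂ → ((ℂ × ℂ) × W) × ℂ),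
    IsOpen (MMg (DDG W) χ) ∧ SimplyConnectedSpace (MMg (DDG W) χ) ∧
    S.IsKaehlerMetric g (MMg (DDG W) χ) ∧ S.IsLeviCivita g Γ (MMg (DDG W) χ) ∧
    S.GeodesicallyComplete Γ (MMg (DDG W) χ) ∧
    (∃ a b : ℝ, 0 < a ∧ a ≤ b ∧ ∀ p ∈ MMg (DDG W) χ, ∀ X Y, LinearIndependent ℝ ![X, Y] →
      -b ≤ S.sectional g Γ p X Y ∧ S.sectional g Γ p X Y ≤ -a) ∧
    ¬ S.BiholomorphicToBoundedDomain (MMg (DDG W) χ) ∧
    ∀ q ∈ DD, FlatAt (MMg (DDG W) χ) (K + 1) ((q, 0), 0) ((0, 1) : ((ℂ × ℂ) × W) × ℂ) := by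
  obtain ⟨χ, hχ, hN, ε0, C0, C3, C4, h0, h1, h3, h4, hU⟩ := exists_chiG' W (K + 1)
  obtain ⟨C, hf⟩ := goodExhaustion_DDG (W := W)
  obtain ⟨g, Γ, hM, hS, hK, hΓ, hC, ⟨a, b, ha, hab, hab'⟩⟩ := disc_bundle (DDG W) isOpen_DDG
    convex_DDG DDG_nonempty PhiG PhiG_contDiffOn exG C hf ε0 C0 C3 C4 h0 h1 h3 h4 χ hχ hU
  have hN1 : NoFunction (fun q => χ (q, 0)) := by
    have := hN 1 le_rfl (by omega)
    simpa using this
  refine ⟨χ, fun p X Y => g p X Y, fun p X Y => Γ p X Y, hM, hS, transfer_kaehler hM hK,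
    transfer_leviCivita hM hK.toIsRiemannianMetric hΓ, transfer_complete hC,
    ⟨a, b, ha, hab, fun p hp X Y hXY => ?_⟩,
    transfer_biholo (not_biholo_G χ hχ.continuousOn hN1),
    fun q hq => flat_G (K + 1) χ hχ.continuousOn hN q hq⟩
  rw [transfer_sectional (differentiableAt_of_open hM hΓ.smooth hp)]
  exact hab' p hp X Y hXY

end B

section Tr

open Vale.Agent.P250.G.Tr

/-- Everything is invariant under a complex-linear equivalence (the landed `transport` with the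
image domain made explicit). -/
theorem transport' {E : Type*} [NormedAddCommGroup E] [NormedSpace ℂ E] [FiniteDimensional ℂ E]
    {E' : Type*} [NormedAddCommGroup E'] [NormedSpace ℂ E'] [FiniteDimensional ℂ E']
    (e : E ≃L[ℂ] E') (M : Set E) (g : E → E → E → ℝ) (Γ : E → E → E → E)
    (h1 : IsOpen M) (h2 : SimplyConnectedSpace M) (h3 : S.IsKaehlerMetric g M)
    (h4 : S.IsLeviCivita g Γ M) (h5 : S.GeodesicallyComplete Γ M)
    (h6 : ∃ a b : ℝ, 0 < a ∧ a ≤ b ∧ ∀ p ∈ M, ∀ X Y, LinearIndependent ℝ ![X, Y] →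
      -b ≤ S.sectional g Γ p X Y ∧ S.sectional g Γ p X Y ≤ -a)
    (h7 : ¬ S.BiholomorphicToBoundedDomain M) :
    ∃ (M' : Set E') (g' : E' → E' → E' → ℝ) (Γ' : E' → E' → E' → E'),
    M' = e.symm ⁻¹' M ∧ IsOpen M' ∧ SimplyConnectedSpace M' ∧ S.IsKaehlerMetric g' M' ∧
    S.IsLeviCivita g' Γ' M' ∧
    S.GeodesicallyComplete Γ' M' ∧
    (∃ a b : ℝ, 0 < a ∧ a ≤ b ∧ ∀ p ∈ M', ∀ X Y, LinearIndependent ℝ ![X, Y] →
      -b ≤ S.sectional g' Γ' p X Y ∧ S.sectional g' Γ' p X Y ≤ -a) ∧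
    ¬ S.BiholomorphicToBoundedDomain M' := by
  set M' : Set E' := e.symm ⁻¹' M with hM'
  set g' : E' → E' → E' → ℝ := fun p X Y => g (e.symm p) (e.symm X) (e.symm Y) with hg'
  set Γ' : E' → E' → E' → E' := fun p X Y => e (Γ (e.symm p) (e.symm X) (e.symm Y)) with hΓ'
  have hsm : ContDiff ℝ (⊤ : ℕ∞) (fun q : E' => e.symm q) := (re e.symm).contDiff
  have hem : ContDiff ℝ (⊤ : ℕ∞) (fun q : E => e q) := (re e).contDiff
  have hmaps : MapsTo (fun q : E' => e.symm q) M' M := fun q hq => hq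
  have hsr : ∀ (r : ℝ) (X : E'), e.symm (r • X) = r • e.symm X := fun r X => (re e.symm).map_smul r X
  have hI : ∀ X : E', e.symm (Complex.I • X) = Complex.I • e.symm X := fun X => map_smul _ _ _
  have hriem : ∀ p X Y Z, S.riem Γ' p X Y Z =
      e (S.riem Γ (e.symm p) (e.symm X) (e.symm Y) (e.symm Z)) := by
    intro p X Y Z
    unfold S.riem
    rw [fderiv_comp' e (fun q => Γ q (e.symm Y) (e.symm Z)),
      fderiv_comp' e (fun q => Γ q (e.symm X) (e.symm Z))]
    simp only [hΓ', ContinuousLinearEquiv.symm_apply_apply, map_add, map_sub]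
  refine ⟨M', g', Γ', rfl, h1.preimage e.symm.continuous, ?_, ?_, ?_, ?_, ?_, ?_⟩
  · let φ : M' ≃ₜ M := e.symm.toHomeomorph.subtype fun q => Iff.rfl
    exact φ.toHomotopyEquiv.simplyConnectedSpace
  · refine ⟨⟨?_, ?_, ?_, ?_⟩, ?_, ?_⟩
    · intro X Y
      exact (h3.smooth (e.symm X) (e.symm Y)).comp hsm.contDiffOn hmaps
    · intro p hp r X Y Z
      change g _ (e.symm (X + r • Y)) _ = _
      rw [map_add, hsr]
      exact h3.linear _ hp _ _ _ _
    · intro p hp X Y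
      exact h3.symm _ hp _ _
    · intro p hp X hX
      exact h3.pos _ hp _ (by simpa using hX)
    · intro p hp X Y
      change g _ (e.symm (Complex.I • X)) (e.symm (Complex.I • Y)) = _
      rw [hI, hI]
      exact h3.hermitian _ hp _ _
    · intro p hp X Y Z
      have hd : ∀ X Y Z : E', fderiv ℝ (fun q => g' q (Complex.I • Y) Z) p X =
          fderiv ℝ (fun q => g q (Complex.I • e.symm Y) (e.symm Z)) (e.symm p) (e.symm X) := by
        intro X Y Z
        rw [← hI]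
        exact fderiv_comp e.symm (fun q => g q (e.symm (Complex.I • Y)) (e.symm Z)) p X
      rw [hd, hd, hd]
      exact h3.closed _ hp _ _ _
  · refine ⟨?_, ?_⟩
    · intro X Y
      exact hem.comp_contDiffOn
        ((h4.smooth (e.symm X) (e.symm Y)).comp hsm.contDiffOn hmaps)
    · intro p hp X Y Z
      have hd : ∀ X Y Z : E', fderiv ℝ (fun q => g' q Y Z) p X =
          fderiv ℝ (fun q => g q (e.symm Y) (e.symm Z)) (e.symm p) (e.symm X) :=
        fun X Y Z => fderiv_comp e.symm (fun q => g q (e.symm Y) (e.symm Z)) p X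
      rw [hd, hd, hd]
      change 2 * g (e.symm p) (e.symm (e (Γ (e.symm p) (e.symm X) (e.symm Y)))) (e.symm Z) = _
      rw [ContinuousLinearEquiv.symm_apply_apply]
      exact h4.koszul _ hp _ _ _
  · intro p hp X
    obtain ⟨γ, γ', h0, h0', hγ⟩ := h5 (e.symm p) hp (e.symm X)
    refine ⟨fun t => e (γ t), fun t => e (γ' t), by simp [h0], by simp [h0'], fun t => ?_⟩
    obtain ⟨ha, hb, hc⟩ := hγ t
    refine ⟨?_, ?_, ?_⟩
    · change e.symm (e (γ t)) ∈ M
      rwa [ContinuousLinearEquiv.symm_apply_apply]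
    · exact ((re e).hasFDerivAt (x := γ t)).comp_hasDerivAt t hb
    · have := ((re e).hasFDerivAt (x := γ' t)).comp_hasDerivAt t hc
      simp only [hΓ', ContinuousLinearEquiv.symm_apply_apply]
      rw [← map_neg]
      exact this
  · obtain ⟨a, b, ha, hab, h⟩ := h6
    refine ⟨a, b, ha, hab, fun p hp X Y hXY => ?_⟩
    have hli : LinearIndependent ℝ ![e.symm X, e.symm Y] := by
      have h8 := hXY.map' ((re e.symm : E' ≃L[ℝ] E) : E' →ₗ[ℝ] E)
        (LinearMap.ker_eq_bot.2 (re e.symm).injective)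
      have h9 : (((re e.symm : E' ≃L[ℝ] E) : E' →ₗ[ℝ] E) ∘ ![X, Y]) = ![e.symm X, e.symm Y] := by
        funext i
        fin_cases i <;> rfl
      rwa [h9] at h8
    have hsec : S.sectional g' Γ' p X Y = S.sectional g Γ (e.symm p) (e.symm X) (e.symm Y) := by
      unfold S.sectional
      rw [hriem]
      simp only [hg', ContinuousLinearEquiv.symm_apply_apply]
    rw [hsec]
    exact h _ hp _ _ hli
  · rintro ⟨U, F, G, hU, hUc, hUb, hF, hG, hFU, hGM, hGF, hFG⟩
    apply h7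
    refine ⟨e ⁻¹' U, fun q => e.symm (F (e q)), fun q => e.symm (G (e q)), hU.preimage e.continuous,
      ?_, ?_, ?_, ?_, ?_, ?_, ?_, ?_⟩
    · have : e ⁻¹' U = e.symm '' U := by
        rw [← e.image_symm_eq_preimage]
      rw [this]
      exact hUc.image _ e.symm.continuous.continuousOn
    · have : e ⁻¹' U = e.symm '' U := by
        rw [← e.image_symm_eq_preimage]
      rw [this]
      exact (e.symm : E' →L[ℂ] E).lipschitz.isBounded_image hUb
    · intro q hq
      have hq' : e q ∈ M' := by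
        change e.symm (e q) ∈ M
        rwa [ContinuousLinearEquiv.symm_apply_apply]
      have hd : DifferentiableWithinAt ℂ (fun q => F (e q)) M q :=
        (hF (e q) hq').comp q e.differentiableAt.differentiableWithinAt (fun y hy => by
          change e.symm (e y) ∈ M
          rwa [ContinuousLinearEquiv.symm_apply_apply])
      exact e.symm.differentiableAt.comp_differentiableWithinAt q hd
    · intro q hq
      have hd : DifferentiableWithinAt ℂ (fun q => G (e q)) (e ⁻¹' U) q :=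
        (hG (e q) hq).comp q e.differentiableAt.differentiableWithinAt (fun y hy => hy)
      exact e.symm.differentiableAt.comp_differentiableWithinAt q hd
    · intro q hq
      change e (e.symm (F (e q))) ∈ U
      rw [ContinuousLinearEquiv.apply_symm_apply]
      refine hFU ?_
      change e.symm (e q) ∈ M
      rwa [ContinuousLinearEquiv.symm_apply_apply]
    · intro q hq
      exact hGM hq
    · intro q hq
      change e.symm (G (e (e.symm (F (e q))))) = q
      rw [ContinuousLinearEquiv.apply_symm_apply, hGF, ContinuousLinearEquiv.symm_apply_apply]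
      change e.symm (e q) ∈ M
      rwa [ContinuousLinearEquiv.symm_apply_apply]
    · intro q hq
      change e.symm (F (e (e.symm (G (e q))))) = q
      rw [ContinuousLinearEquiv.apply_symm_apply, hFG _ hq,
        ContinuousLinearEquiv.symm_apply_apply]

lemma FlatAt.map {E E' : Type*} [NormedAddCommGroup E] [NormedSpace ℂ E]
    [NormedAddCommGroup E'] [NormedSpace ℂ E'] (e : E ≃L[ℂ] E') {M : Set E} {K : ℕ} {p v : E}
    (h : FlatAt M K p v) : FlatAt (e.symm ⁻¹' M) K (e p) (e v) := by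
  intro F hF ⟨C, hC⟩ j hj hjK
  have h1 : DifferentiableOn ℂ (fun q => F (e q)) M := by
    refine hF.comp e.differentiable.differentiableOn fun q hq => ?_
    change e.symm (e q) ∈ M
    rwa [ContinuousLinearEquiv.symm_apply_apply]
  have h2 := h (fun q => F (e q)) h1 ⟨C, fun q hq => hC _ (by
    change e.symm (e q) ∈ M
    rwa [ContinuousLinearEquiv.symm_apply_apply])⟩ j hj hjK
  simpa only [map_add, map_smul] using h2

lemma FlatAt.stationary {E : Type*} [NormedAddCommGroup E] [NormedSpace ℂ E] {M : Set E}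
    (hM : IsOpen M) {K : ℕ} {p v : E} (hp : p ∈ M) (h : FlatAt M (K + 1) p v) :
    StationaryAt M p v := by
  intro Y _ _ F hF ⟨C, hC⟩
  refine SeparatingDual.eq_zero_of_forall_dual_eq_zero (R := ℂ) fun ℓ => ?_
  have hFp : DifferentiableAt ℂ F p := hF.differentiableAt (hM.mem_nhds hp)
  have h1 : DifferentiableOn ℂ (fun q => ℓ (F q)) M :=
    ℓ.differentiable.comp_differentiableOn hF
  have h2 := h (fun q => ℓ (F q)) h1 ⟨‖ℓ‖ * C, fun q hq =>
    (ℓ.le_opNorm _).trans (mul_le_mul_of_nonneg_left (hC q hq) (norm_nonneg _))⟩ 1 le_rfl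
    (by omega)
  rw [iteratedDeriv_one] at h2
  have h3 : HasDerivAt (fun t : ℂ => p + t • v) v 0 := by
    simpa using ((hasDerivAt_id (0 : ℂ)).smul_const v).const_add p
  have h4 : HasFDerivAt (fun q => ℓ (F q)) (ℓ.comp (fderiv ℂ F p)) (p + (0 : ℂ) • v) := by
    have : p + (0 : ℂ) • v = p := by simp
    rw [this]
    exact ℓ.hasFDerivAt.comp p hFp.hasFDerivAt
  have h5 := (h4.comp_hasDerivAt (0 : ℂ) h3).deriv
  have h6 : deriv (fun t : ℂ => ℓ (F (p + t • v))) 0 = ℓ (fderiv ℂ F p v) := h5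
  rw [← h6]
  exact h2

end Tr

theorem main_all' (n : ℕ) (hn : 3 ≤ n) (K : ℕ) :
    ∃ (M : Set (EuclideanSpace ℂ (Fin n)))
      (g : EuclideanSpace ℂ (Fin n) → EuclideanSpace ℂ (Fin n) → EuclideanSpace ℂ (Fin n) → ℝ)
      (Γ : EuclideanSpace ℂ (Fin n) → EuclideanSpace ℂ (Fin n) → EuclideanSpace ℂ (Fin n)
        → EuclideanSpace ℂ (Fin n)),
    IsOpen M ∧ SimplyConnectedSpace M ∧ S.IsKaehlerMetric g M ∧ S.IsLeviCivita g Γ M ∧
    S.GeodesicallyComplete Γ M ∧
    (∃ a b : ℝ, 0 < a ∧ a ≤ b ∧ ∀ p ∈ M, ∀ X Y, LinearIndependent ℝ ![X, Y] →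
      -b ≤ S.sectional g Γ p X Y ∧ S.sectional g Γ p X Y ≤ -a) ∧
    ¬ S.BiholomorphicToBoundedDomain M ∧
    ∃ (L : Submodule ℂ (EuclideanSpace ℂ (Fin n))) (v : EuclideanSpace ℂ (Fin n)),
      Module.finrank ℂ L = 2 ∧ v ∉ L ∧ (M ∩ L).Nonempty ∧
      (∀ p ∈ M ∩ L, FlatAt M K p v) ∧ (∀ p ∈ M ∩ L, StationaryAt M p v) := by
  obtain ⟨k, rfl⟩ := Nat.exists_eq_add_of_le hn
  obtain ⟨χ, g, Γ, h1, h2, h3, h4, h5, h6, h7, h8⟩ := main_W' (EuclideanSpace ℂ (Fin k)) K
  have hd : Module.finrank ℂ (((ℂ × ℂ) × EuclideanSpace ℂ (Fin k)) × ℂ)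
      = Module.finrank ℂ (EuclideanSpace ℂ (Fin (3 + k))) := by
    simp
    omega
  set e := ContinuousLinearEquiv.ofFinrankEq hd with he
  obtain ⟨M', g', Γ', hM', i1, i2, i3, i4, i5, i6, i7⟩ := transport' e _ g Γ h1 h2 h3 h4 h5 h6 h7
  refine ⟨M', g', Γ', i1, i2, i3, i4, i5, i6, i7, ?_⟩
  -- the plane of the zero section
  let ι : (ℂ × ℂ) →ₗ[ℂ] ((ℂ × ℂ) × EuclideanSpace ℂ (Fin k)) × ℂ :=
    (LinearMap.inl ℂ _ ℂ).comp (LinearMap.inl ℂ (ℂ × ℂ) (EuclideanSpace ℂ (Fin k)))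
  have hι : ∀ q, ι q = ((q, 0), 0) := fun q => rfl
  let ι' : (ℂ × ℂ) →ₗ[ℂ] EuclideanSpace ℂ (Fin (3 + k)) := (e : _ →ₗ[ℂ] _).comp ι
  have hι' : ∀ q, ι' q = e ((q, 0), 0) := fun q => rfl
  have hinj : Function.Injective ι' := by
    intro q q' h
    rw [hι', hι'] at h
    have := e.injective h
    simpa using this
  have hL : ∀ p ∈ M' ∩ (LinearMap.range ι' : Set _), ∃ q ∈ DD, p = e ((q, 0), 0) := by
    rintro p ⟨hp, q, rfl⟩
    refine ⟨q, ?_, rfl⟩
    rw [hM'] at hp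
    have hp' : e.symm (ι' q) ∈ MMg (DDG (EuclideanSpace ℂ (Fin k))) χ := hp
    rw [hι', ContinuousLinearEquiv.symm_apply_apply] at hp'
    have h9 : (0 : ℝ) < rhoG ((q, (0 : EuclideanSpace ℂ (Fin k)))) := hp'.1
    rw [rhoG_zero] at h9
    exact h9
  refine ⟨LinearMap.range ι', e (0, 1), ?_, ?_, ?_, ?_, ?_⟩
  · rw [LinearMap.finrank_range_of_inj hinj]
    simp
  · rintro ⟨q, hq⟩
    rw [hι'] at hq
    have := e.injective hq
    simp at this
  · have hq0 : ((0 : ℂ), Complex.I) ∈ DD := by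
      show 0 < rho (0, Complex.I)
      simp only [rho, Complex.I_im, Complex.zero_im, ne_eq, OfNat.ofNat_ne_zero,
        not_false_eq_true, zero_pow, sub_zero, zero_lt_one]
    refine ⟨ι' (0, Complex.I), ?_, ⟨_, rfl⟩⟩
    rw [hM']
    change e.symm (ι' (0, Complex.I)) ∈ MMg (DDG (EuclideanSpace ℂ (Fin k))) χ
    rw [hι', ContinuousLinearEquiv.symm_apply_apply]
    exact GNot.mem_MMg_zero hq0
  · intro p hp
    obtain ⟨q, hq, rfl⟩ := hL p hp
    have h9 := (h8 q hq).map e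
    rw [← hM'] at h9
    intro F hF hC j hj hjK
    exact h9 F hF hC j hj (by omega)
  · intro p hp
    have hpM : p ∈ M' := hp.1
    obtain ⟨q, hq, rfl⟩ := hL p hp
    have h9 := (h8 q hq).map e
    rw [← hM'] at h9
    exact h9.stationary i1 hpM

end Vale.Agent.P250.H154
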